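import Mathlib

namespace Vale.Agent.Results.P330.HalfBarrier

/-- The nine gate kinds of a generalized circuit, with their parameters and input nodes.
The output node of a gate is the node the gate is attached to (see `GCircuit`). -/
inductive Gate (V : Type) : Type where
  | constG (α : ℚ) : Gate V
  | scaleG (α : ℚ) (a : V) : Gate V
  | copyG (a : V) : Gate V
  | addG (a b : V) : Gate V
  | subG (a b : V) : Gate V
  | lessG (a b : V) : Gate V
  | notG (a : V) : Gate V
  | orG (a b : V) : Gate V
  | andG (a b : V) : Gate V

/-- A generalized circuit on the node set `V`: `gate z` is the gate whose output node is `z`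
(`none` when `z` is the output of no gate), so every node is the output of at most one gate;
directed cycles are allowed; the parameters of Constant and Scale gates are rationals in `[0,1]`;
there is at least one gate. -/
structure GCircuit (V : Type) where
  gate : V → Option (Gate V)
  const_mem : ∀ z α, gate z = some (Gate.constG α) → 0 ≤ α ∧ α ≤ 1
  scale_mem : ∀ z α a, gate z = some (Gate.scaleG α a) → 0 ≤ α ∧ α ≤ 1
  nonempty : ∃ z, gate z ≠ none

/-- `g.Sat ε x z`: the gate `g` with output node `z` is `ε`-satisfied by the assignment `x`. -/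
def Gate.Sat {V : Type} (ε : ℝ) (x : V → ℝ) (z : V) : Gate V → Prop
  | .constG α => |x z - (α : ℝ)| ≤ ε
  | .scaleG α a => |x z - (α : ℝ) * x a| ≤ ε
  | .copyG a => |x z - x a| ≤ ε
  | .addG a b => |x z - min (x a + x b) 1| ≤ ε
  | .subG a b => |x z - max (x a - x b) 0| ≤ ε
  | .lessG a b => (x a < x b - ε → 1 - ε ≤ x z) ∧ (x b + ε < x a → x z ≤ ε)
  | .notG a => (x a ≤ ε → 1 - ε ≤ x z) ∧ (1 - ε ≤ x a → x z ≤ ε)
  | .orG a b => ((1 - ε ≤ x a ∨ 1 - ε ≤ x b) → 1 - ε ≤ x z) ∧ ((x a ≤ ε ∧ x b ≤ ε) → x z ≤ ε)
  | .andG a b => ((1 - ε ≤ x a ∧ 1 - ε ≤ x b) → 1 - ε ≤ x z) ∧ ((x a ≤ ε ∨ x b ≤ ε) → x z ≤ ε)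

/-- The set of gates, each identified with its output node. -/
def gateSet {V : Type} (G : GCircuit V) : Set V := {z | G.gate z ≠ none}

/-- The set of gates that are `ε`-satisfied by `x`. -/
def satSet {V : Type} (G : GCircuit V) (ε : ℝ) (x : V → ℝ) : Set V :=
  {z | ∃ g, G.gate z = some g ∧ g.Sat ε x z}

/-- Read the chain of Not gates backwards from `z` for at most `k` steps: a Constant gate with
parameter `α` gives `α`, a Not gate gives one minus the value of its input, and everything else
(any other gate, no gate, or running out of steps) gives `1/2`. -/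
def chainVal {V : Type} (G : GCircuit V) : ℕ → V → ℚ
  | 0, z =>
    match G.gate z with
    | some (Gate.constG α) => α
    | _ => 1 / 2
  | (k + 1), z =>
    match G.gate z with
    | some (Gate.constG α) => α
    | some (Gate.notG a) => 1 - chainVal G k a
    | _ => 1 / 2

/-- The second explicit assignment: chains of Not gates are followed for `|V|` steps. -/
def chainAssign {V : Type} [Fintype V] (G : GCircuit V) : V → ℚ :=
  chainVal G (Fintype.card V)

section aux

variable {V : Type}

/-- The chain of Not gates read backwards from `z` stops after exactly `j` steps. -/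
def Term (G : GCircuit V) : ℕ → V → Prop
  | 0, z => ∀ a, G.gate z ≠ some (Gate.notG a)
  | (j + 1), z => ∃ a, G.gate z = some (Gate.notG a) ∧ Term G j a

theorem term_unique (G : GCircuit V) : ∀ (j j' : ℕ) (z : V), Term G j z → Term G j' z → j = j' := by
  intro j
  induction j with
  | zero =>
    intro j' z h h'
    cases j' with
    | zero => rfl
    | succ j'' =>
      obtain ⟨a, ha, _⟩ := h'
      exact absurd ha (h a)
  | succ j ih =>
    intro j' z h h'
    cases j' with
    | zero =>
      obtain ⟨a, ha, _⟩ := h
      exact absurd ha (h' a)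
    | succ j'' =>
      obtain ⟨a, ha, hta⟩ := h
      obtain ⟨a', ha', hta'⟩ := h'
      rw [ha] at ha'
      have haa : a = a' := by
        injection ha' with h1
        injection h1
      subst haa
      rw [ih j'' a hta hta']

/-- The `i`-th node on the chain of Not gates read backwards from `z`. -/
def nth (G : GCircuit V) : ℕ → V → V
  | 0, z => z
  | (i + 1), z =>
    match G.gate z with
    | some (Gate.notG a) => nth G i a
    | _ => z

theorem nth_term (G : GCircuit V) :
    ∀ (i j : ℕ) (z : V), Term G j z → i ≤ j → Term G (j - i) (nth G i z) := by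
  intro i
  induction i with
  | zero => intro j z h _; simpa [nth] using h
  | succ i ih =>
    intro j z h hij
    cases j with
    | zero => omega
    | succ j' =>
      obtain ⟨a, ha, hta⟩ := h
      have h1 : nth G (i + 1) z = nth G i a := by
        simp [nth, ha]
      rw [h1]
      have h2 : j' + 1 - (i + 1) = j' - i := by omega
      rw [h2]
      exact ih j' a hta (by omega)

theorem term_lt_card [Fintype V] (G : GCircuit V) (j : ℕ) (z : V) (h : Term G j z) :
    j < Fintype.card V := by
  have hinj : Function.Injective (fun i : Fin (j + 1) => nth G i.1 z) := by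
    intro i i' hii
    have h1 := nth_term G i.1 j z h (by omega)
    have h2 := nth_term G i'.1 j z h (by omega)
    simp only at hii
    rw [hii] at h1
    have h3 := term_unique G _ _ _ h1 h2
    apply Fin.ext
    omega
  have := Fintype.card_le_of_injective _ hinj
  simp at this
  omega

theorem chainVal_of_not_notG (G : GCircuit V) (z : V)
    (h : ∀ a, G.gate z ≠ some (Gate.notG a)) (k : ℕ) : chainVal G k z = chainVal G 0 z := by
  cases k with
  | zero => rfl
  | succ k =>
    cases hg : G.gate z with
    | none => simp [chainVal, hg]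
    | some g =>
      cases g with
      | notG a => exact absurd hg (h a)
      | constG α => simp [chainVal, hg]
      | scaleG α a => simp [chainVal, hg]
      | copyG a => simp [chainVal, hg]
      | addG a b => simp [chainVal, hg]
      | subG a b => simp [chainVal, hg]
      | lessG a b => simp [chainVal, hg]
      | orG a b => simp [chainVal, hg]
      | andG a b => simp [chainVal, hg]

theorem chainVal_stable (G : GCircuit V) :
    ∀ (j : ℕ) (z : V), Term G j z → ∀ k, j ≤ k → chainVal G k z = chainVal G j z := by
  intro j
  induction j with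
  | zero =>
    intro z h k _
    exact chainVal_of_not_notG G z h k
  | succ j ih =>
    intro z h k hk
    obtain ⟨a, ha, hta⟩ := h
    obtain ⟨k', rfl⟩ : ∃ k', k = k' + 1 := ⟨k - 1, by omega⟩
    have h1 : chainVal G (k' + 1) z = 1 - chainVal G k' a := by simp [chainVal, ha]
    have h2 : chainVal G (j + 1) z = 1 - chainVal G j a := by simp [chainVal, ha]
    rw [h1, h2, ih a hta k' (by omega)]

theorem chainVal_of_no_term (G : GCircuit V) :
    ∀ (k : ℕ) (z : V), (∀ j, ¬ Term G j z) → chainVal G k z = 1 / 2 := by
  intro k
  induction k with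
  | zero =>
    intro z h
    have h0 := h 0
    simp only [Term, not_forall, not_not] at h0
    obtain ⟨a, ha⟩ := h0
    simp [chainVal, ha]
  | succ k ih =>
    intro z h
    have h0 := h 0
    simp only [Term, not_forall, not_not] at h0
    obtain ⟨a, ha⟩ := h0
    have hna : ∀ j, ¬ Term G j a := fun j hj => h (j + 1) ⟨a, ha, hj⟩
    have h1 : chainVal G (k + 1) z = 1 - chainVal G k a := by simp [chainVal, ha]
    rw [h1, ih a hna]
    norm_num

theorem chainVal_mem (G : GCircuit V) : ∀ (k : ℕ) (z : V), 0 ≤ chainVal G k z ∧ chainVal G k z ≤ 1 := by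
  intro k
  induction k with
  | zero =>
    intro z
    cases hg : G.gate z with
    | none => simp [chainVal, hg]; norm_num
    | some g =>
      cases g with
      | constG α => simpa [chainVal, hg] using G.const_mem z α hg
      | notG a => simp [chainVal, hg]; norm_num
      | scaleG α a => simp [chainVal, hg]; norm_num
      | copyG a => simp [chainVal, hg]; norm_num
      | addG a b => simp [chainVal, hg]; norm_num
      | subG a b => simp [chainVal, hg]; norm_num
      | lessG a b => simp [chainVal, hg]; norm_num
      | orG a b => simp [chainVal, hg]; norm_num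
      | andG a b => simp [chainVal, hg]; norm_num
  | succ k ih =>
    intro z
    cases hg : G.gate z with
    | none => simp [chainVal, hg]; norm_num
    | some g =>
      cases g with
      | constG α => simpa [chainVal, hg] using G.const_mem z α hg
      | notG a =>
        have := ih a
        simp only [chainVal, hg]
        constructor <;> linarith [this.1, this.2]
      | scaleG α a => simp [chainVal, hg]; norm_num
      | copyG a => simp [chainVal, hg]; norm_num
      | addG a b => simp [chainVal, hg]; norm_num
      | subG a b => simp [chainVal, hg]; norm_num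
      | lessG a b => simp [chainVal, hg]; norm_num
      | orG a b => simp [chainVal, hg]; norm_num
      | andG a b => simp [chainVal, hg]; norm_num

theorem chainAssign_const [Fintype V] (G : GCircuit V) (z : V) (α : ℚ)
    (h : G.gate z = some (Gate.constG α)) : chainAssign G z = α := by
  unfold chainAssign
  cases Fintype.card V with
  | zero => simp [chainVal, h]
  | succ k => simp [chainVal, h]

theorem chainAssign_not [Fintype V] (G : GCircuit V) (z a : V)
    (h : G.gate z = some (Gate.notG a)) : chainAssign G z = 1 - chainAssign G a := by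
  unfold chainAssign
  have hpos : 0 < Fintype.card V := Fintype.card_pos_iff.mpr ⟨z⟩
  obtain ⟨m, hm⟩ : ∃ m, Fintype.card V = m + 1 := ⟨Fintype.card V - 1, by omega⟩
  rw [hm]
  have h1 : chainVal G (m + 1) z = 1 - chainVal G m a := by simp [chainVal, h]
  rw [h1]
  congr 1
  by_cases ht : ∃ j, Term G j a
  · obtain ⟨j, hj⟩ := ht
    have hlt := term_lt_card G j a hj
    rw [chainVal_stable G j a hj m (by omega), chainVal_stable G j a hj (m + 1) (by omega)]
  · have hn : ∀ j, ¬ Term G j a := fun j hj => ht ⟨j, hj⟩
    rw [chainVal_of_no_term G m a hn, chainVal_of_no_term G (m + 1) a hn]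

theorem zero_sat (ε : ℝ) (hε : 0 < ε) (z : V) (g : Gate V)
    (hc : ∀ α, g ≠ Gate.constG α) (hn : ∀ a, g ≠ Gate.notG a) :
    g.Sat ε (fun _ => 0) z := by
  cases g with
  | constG α => exact absurd rfl (hc α)
  | notG a => exact absurd rfl (hn a)
  | scaleG α a => simp [Gate.Sat]; exact hε.le
  | copyG a => simp [Gate.Sat]; exact hε.le
  | addG a b => simp [Gate.Sat]; exact hε.le
  | subG a b => simp [Gate.Sat]; exact hε.le
  | lessG a b =>
    refine ⟨fun h => ?_, fun h => ?_⟩
    · exfalso; linarith
    · exfalso; linarith
  | orG a b =>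
    refine ⟨fun h => ?_, fun _ => hε.le⟩
    rcases h with h | h <;> exact h
  | andG a b =>
    refine ⟨fun h => h.1, fun _ => hε.le⟩

end aux

/-- For every generalized circuit and every `ε > 0`, consider two explicit assignments, neither
depending on `ε`: the all-zero assignment, and `chainAssign G` (which takes values in `[0,1]`).
Every gate is `ε`-satisfied by at least one of the two, hence one of the two assignments
`ε`-satisfies at least half of the gates. -/
theorem result {V : Type} [Fintype V] (G : GCircuit V) (ε : ℝ) (hε : 0 < ε) :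
    (∀ v, 0 ≤ chainAssign G v ∧ chainAssign G v ≤ 1) ∧
    gateSet G ⊆ satSet G ε (fun _ => 0) ∪ satSet G ε (fun v => ((chainAssign G v : ℚ) : ℝ)) ∧
    ((gateSet G).ncard ≤ 2 * (satSet G ε (fun _ => 0)).ncard ∨
      (gateSet G).ncard ≤ 2 * (satSet G ε (fun v => ((chainAssign G v : ℚ) : ℝ))).ncard) := by
  have hsub : gateSet G ⊆ satSet G ε (fun _ => 0) ∪
      satSet G ε (fun v => ((chainAssign G v : ℚ) : ℝ)) := by
    intro z hz
    have hz' : G.gate z ≠ none := hz
    obtain ⟨g, hg⟩ := Option.ne_none_iff_exists'.mp hz'
    by_cases hc : ∃ α, g = Gate.constG α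
    · obtain ⟨α, rfl⟩ := hc
      right
      refine ⟨_, hg, ?_⟩
      simp [Gate.Sat, chainAssign_const G z α hg, hε.le]
    · by_cases hn : ∃ a, g = Gate.notG a
      · obtain ⟨a, rfl⟩ := hn
        right
        refine ⟨_, hg, ?_⟩
        have h1 := chainAssign_not G z a hg
        have h2 : ((chainAssign G z : ℚ) : ℝ) = 1 - ((chainAssign G a : ℚ) : ℝ) := by
          rw [h1]; push_cast; ring
        refine ⟨fun h => ?_, fun h => ?_⟩
        · simp only at h ⊢; rw [h2]; linarith
        · simp only at h ⊢; rw [h2]; linarith
      · left
        exact ⟨g, hg, zero_sat ε hε z g (fun α h => hc ⟨α, h⟩) (fun a h => hn ⟨a, h⟩)⟩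
  refine ⟨fun v => chainVal_mem G _ v, hsub, ?_⟩
  have h1 := Set.ncard_le_ncard hsub (Set.toFinite _)
  have h2 := Set.ncard_union_le (satSet G ε (fun _ => 0))
    (satSet G ε (fun v => ((chainAssign G v : ℚ) : ℝ)))
  omega

end Vale.Agent.Results.P330.HalfBarrier
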