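import Mathlib
import Vale.Agent.Results.P330.HalfBarrier

namespace Vale.Agent.Results.P330.HalfBarrierPlain

open Vale.Agent.Results.P330.HalfBarrier

/-- Existence of an assignment that equals the parameter at Constant gates and one minus the
value of the input at Not gates (the chain assignment of `HalfBarrier`). -/
theorem exists_chain {V : Type} [Fintype V] (kind : V → Option (Fin 9)) (α : V → ℚ)
    (a : V → V) (hα : ∀ z, kind z = some 0 → 0 ≤ α z ∧ α z ≤ 1) :
    ∃ y : V → ℚ, (∀ z, 0 ≤ y z ∧ y z ≤ 1) ∧ (∀ z, kind z = some 0 → y z = α z) ∧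
      (∀ z, kind z = some 6 → y z = 1 - y (a z)) := by
  by_cases hne : ∃ z, kind z = some 0 ∨ kind z = some 6
  · -- a circuit containing only the Constant and Not gates
    let gate : V → Option (Gate V) := fun z =>
      if kind z = some 0 then some (Gate.constG (α z))
      else if kind z = some 6 then some (Gate.notG (a z)) else none
    have hc : ∀ z, kind z = some 0 → gate z = some (Gate.constG (α z)) := by
      intro z h; simp [gate, h]
    have hn : ∀ z, kind z = some 6 → gate z = some (Gate.notG (a z)) := by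
      intro z h; simp [gate, h]
    let G : GCircuit V :=
      { gate := gate
        const_mem := by
          intro z β h
          by_cases h0 : kind z = some 0
          · rw [hc z h0] at h
            have : α z = β := by injection h with h1; injection h1
            rw [← this]; exact hα z h0
          · by_cases h6 : kind z = some 6
            · rw [hn z h6] at h
              injection h with h1
              cases h1
            · simp [gate, h0, h6] at h
        scale_mem := by
          intro z β c h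
          by_cases h0 : kind z = some 0
          · rw [hc z h0] at h
            injection h with h1
            cases h1
          · by_cases h6 : kind z = some 6
            · rw [hn z h6] at h
              injection h with h1
              cases h1
            · simp [gate, h0, h6] at h
        nonempty := by
          obtain ⟨z, hz⟩ := hne
          refine ⟨z, ?_⟩
          rcases hz with h | h
          · rw [hc z h]; simp
          · rw [hn z h]; simp }
    refine ⟨chainAssign G, fun z => chainVal_mem G _ z, fun z h => ?_, fun z h => ?_⟩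
    · exact chainAssign_const G z (α z) (hc z h)
    · exact chainAssign_not G z (a z) (hn z h)
  · refine ⟨fun _ => 0, fun z => ⟨le_rfl, zero_le_one⟩, fun z h => ?_, fun z h => ?_⟩
    · exact absurd ⟨z, Or.inl h⟩ hne
    · exact absurd ⟨z, Or.inr h⟩ hne


/-- Plain form of the one-half barrier. A generalized circuit on the finite node set `V` is given
by `kind z` (`none`: `z` is the output of no gate; `some k`: `z` is the output of a gate of kind
`k`, with `0` Constant, `1` Scale, `2` Copy, `3` Add, `4` Subtract, `5` Less, `6` Not, `7` Or,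
`8` And), its parameter `α z` (kinds `0`, `1`) and its input nodes `a z`, `b z`.
`Sat ε x z` says that `z` is the output of a gate and this gate is `ε`-satisfied by `x`.
(i) There is a rational assignment `y` with values in `[0,1]` that equals `α` at Constant gates
and `1 - y (a z)` at Not gates.
(ii) For every `y` with these two properties and every `ε > 0`, each gate is `ε`-satisfied by the
all-zero assignment or by `y`; hence one of the two `ε`-satisfies at least half of the gates. -/
theorem result {V : Type} [Fintype V] (kind : V → Option (Fin 9)) (α : V → ℚ) (a b : V → V)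
    (hα : ∀ z, kind z = some 0 → 0 ≤ α z ∧ α z ≤ 1) :
    let Sat : ℝ → (V → ℝ) → V → Prop := fun ε x z =>
      (kind z = some 0 ∧ |x z - (α z : ℝ)| ≤ ε) ∨
      (kind z = some 1 ∧ |x z - (α z : ℝ) * x (a z)| ≤ ε) ∨
      (kind z = some 2 ∧ |x z - x (a z)| ≤ ε) ∨
      (kind z = some 3 ∧ |x z - min (x (a z) + x (b z)) 1| ≤ ε) ∨
      (kind z = some 4 ∧ |x z - max (x (a z) - x (b z)) 0| ≤ ε) ∨
      (kind z = some 5 ∧ (x (a z) < x (b z) - ε → 1 - ε ≤ x z) ∧
        (x (b z) + ε < x (a z) → x z ≤ ε)) ∨
      (kind z = some 6 ∧ (x (a z) ≤ ε → 1 - ε ≤ x z) ∧ (1 - ε ≤ x (a z) → x z ≤ ε)) ∨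
      (kind z = some 7 ∧ ((1 - ε ≤ x (a z) ∨ 1 - ε ≤ x (b z)) → 1 - ε ≤ x z) ∧
        ((x (a z) ≤ ε ∧ x (b z) ≤ ε) → x z ≤ ε)) ∨
      (kind z = some 8 ∧ ((1 - ε ≤ x (a z) ∧ 1 - ε ≤ x (b z)) → 1 - ε ≤ x z) ∧
        ((x (a z) ≤ ε ∨ x (b z) ≤ ε) → x z ≤ ε))
    (∃ y : V → ℚ, (∀ z, 0 ≤ y z ∧ y z ≤ 1) ∧ (∀ z, kind z = some 0 → y z = α z) ∧
      (∀ z, kind z = some 6 → y z = 1 - y (a z))) ∧
    (∀ y : V → ℚ, (∀ z, kind z = some 0 → y z = α z) →
      (∀ z, kind z = some 6 → y z = 1 - y (a z)) →
      ∀ ε : ℝ, 0 < ε →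
        (∀ z, kind z ≠ none → Sat ε (fun _ => 0) z ∨ Sat ε (fun v => (y v : ℝ)) z) ∧
        ({z | kind z ≠ none}.ncard ≤ 2 * {z | Sat ε (fun _ => 0) z}.ncard ∨
          {z | kind z ≠ none}.ncard ≤ 2 * {z | Sat ε (fun v => (y v : ℝ)) z}.ncard)) := by
  intro Sat
  refine ⟨exists_chain kind α a hα, ?_⟩
  intro y hyc hyn ε hε
  have hcov : ∀ z, kind z ≠ none → Sat ε (fun _ => 0) z ∨ Sat ε (fun v => (y v : ℝ)) z := by
    intro z hz
    obtain ⟨k, hk⟩ := Option.ne_none_iff_exists'.mp hz
    fin_cases k
    · -- Constant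
      right
      refine Or.inl ⟨hk, ?_⟩
      have h1 : ((y z : ℚ) : ℝ) = (α z : ℝ) := by rw [hyc z hk]
      show |((y z : ℚ) : ℝ) - (α z : ℝ)| ≤ ε
      rw [h1, sub_self, abs_zero]
      exact hε.le
    · -- Scale
      left
      refine Or.inr (Or.inl ⟨hk, ?_⟩)
      simp only [mul_zero, sub_self, abs_zero]
      exact hε.le
    · -- Copy
      left
      refine Or.inr (Or.inr (Or.inl ⟨hk, ?_⟩))
      simp only [sub_self, abs_zero]
      exact hε.le
    · -- Add
      left
      refine Or.inr (Or.inr (Or.inr (Or.inl ⟨hk, ?_⟩)))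
      have h1 : min ((0 : ℝ) + 0) 1 = 0 := by norm_num
      rw [h1, sub_self, abs_zero]
      exact hε.le
    · -- Subtract
      left
      refine Or.inr (Or.inr (Or.inr (Or.inr (Or.inl ⟨hk, ?_⟩))))
      have h1 : max ((0 : ℝ) - 0) 0 = 0 := by norm_num
      rw [h1, sub_self, abs_zero]
      exact hε.le
    · -- Less
      left
      refine Or.inr (Or.inr (Or.inr (Or.inr (Or.inr (Or.inl ⟨hk, ?_, ?_⟩)))))
      · intro h; exfalso; linarith
      · intro h; exfalso; linarith
    · -- Not
      right
      refine Or.inr (Or.inr (Or.inr (Or.inr (Or.inr (Or.inr (Or.inl ⟨hk, ?_, ?_⟩))))))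
      · intro h
        have h1 : ((y z : ℚ) : ℝ) = 1 - ((y (a z) : ℚ) : ℝ) := by
          rw [hyn z hk]; push_cast; ring
        have h' : ((y (a z) : ℚ) : ℝ) ≤ ε := h
        show 1 - ε ≤ ((y z : ℚ) : ℝ)
        rw [h1]; linarith
      · intro h
        have h1 : ((y z : ℚ) : ℝ) = 1 - ((y (a z) : ℚ) : ℝ) := by
          rw [hyn z hk]; push_cast; ring
        have h' : 1 - ε ≤ ((y (a z) : ℚ) : ℝ) := h
        show ((y z : ℚ) : ℝ) ≤ ε
        rw [h1]; linarith
    · -- Or
      left
      refine Or.inr (Or.inr (Or.inr (Or.inr (Or.inr (Or.inr (Or.inr (Or.inl ⟨hk, ?_, ?_⟩)))))))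
      · intro h; rcases h with h | h <;> exact h
      · intro _; exact hε.le
    · -- And
      left
      refine Or.inr (Or.inr (Or.inr (Or.inr (Or.inr (Or.inr (Or.inr (Or.inr ⟨hk, ?_, ?_⟩)))))))
      · intro h; exact h.1
      · intro _; exact hε.le
  refine ⟨hcov, ?_⟩
  have hsub : {z | kind z ≠ none} ⊆
      {z | Sat ε (fun _ => 0) z} ∪ {z | Sat ε (fun v => (y v : ℝ)) z} := by
    intro z hz
    exact hcov z hz
  have h1 := Set.ncard_le_ncard hsub (Set.toFinite _)
  have h2 := Set.ncard_union_le {z | Sat ε (fun _ => 0) z} {z | Sat ε (fun v => (y v : ℝ)) z}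
  omega

end Vale.Agent.Results.P330.HalfBarrierPlain
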