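import Mathlib
import Vale.Agent.Helper2.GCircuitEasy

/-!
# P330 (PCP for PPAD): generalized circuits are easy for `ε ≥ 1/4`

For every `ε ≥ 1/4` an assignment that `ε`-satisfies every gate of a generalized circuit is
given by an explicit rule: the constant `1/2` when `ε ≥ 1/2`, and for `1/4 ≤ ε < 1/2` fixed
values in `[1/4, 3/4]` at the outputs of Constant, Scale, Copy, Add and Subtract gates together
with the `|V|`-th iterate of a monotone three-valued update at the outputs of Less, Not, Or and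
And gates. The proof is in `Vale.Agent.Helper2.GCircuitEasy`.
-/

namespace Vale.Agent.Results.P330.LargeEpsilon

/-- Generalized circuits are easy for `ε ≥ 1/4`. A generalized circuit on the finite node set `V`
is given by `kind z` (`none`: `z` is the output of no gate; `some k`: `z` is the output of a gate
of kind `k`, with `0` Constant, `1` Scale, `2` Copy, `3` Add, `4` Subtract, `5` Less, `6` Not,
`7` Or, `8` And), its parameter `α z` (kinds `0`, `1`) and its input nodes `a z`, `b z`.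
`Sat x z` says that `z` is the output of a gate and this gate is `ε`-satisfied by `x`.
(i) If `ε ≥ 1/2`, the constant assignment `1/2` satisfies every gate.
(ii) If `1/4 ≤ ε < 1/2`: start from `x₀` (the parameter clamped to `[1/4, 3/4]` at Constant
gates, `max (1/4) (α/2)` at Scale gates, `3/4` at Add gates, `1/4` at Subtract gates, `1/2`
elsewhere) and apply `|V|` times the update `step`, which recomputes the outputs of the Less,
Not, Or and And gates as `3/4` (forced high), `1/4` (forced low) or `1/2` (not forced). The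
result is a fixed point of `step`, has its values in `[1/4, 3/4]`, and satisfies every gate. -/
theorem result {V : Type} [Fintype V] (kind : V → Option (Fin 9)) (α : V → ℚ) (a b : V → V)
    (hα : ∀ z, kind z = some 0 ∨ kind z = some 1 → 0 ≤ α z ∧ α z ≤ 1) (ε : ℝ) :
    let Sat : (V → ℝ) → V → Prop := fun x z =>
      (kind z = some 0 ∧ |x z - (α z : ℝ)| ≤ ε) ∨
      (kind z = some 1 ∧ |x z - (α z : ℝ) * x (a z)| ≤ ε) ∨
      (kind z = some 2 ∧ |x z - x (a z)| ≤ ε) ∨
      (kind z = some 3 ∧ |x z - min (x (a z) + x (b z)) 1| ≤ ε) ∨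
      (kind z = some 4 ∧ |x z - max (x (a z) - x (b z)) 0| ≤ ε) ∨
      (kind z = some 5 ∧ (x (a z) < x (b z) - ε → 1 - ε ≤ x z) ∧
        (x (b z) + ε < x (a z) → x z ≤ ε)) ∨
      (kind z = some 6 ∧ (x (a z) ≤ ε → 1 - ε ≤ x z) ∧ (1 - ε ≤ x (a z) → x z ≤ ε)) ∨
      (kind z = some 7 ∧ ((1 - ε ≤ x (a z) ∨ 1 - ε ≤ x (b z)) → 1 - ε ≤ x z) ∧
        ((x (a z) ≤ ε ∧ x (b z) ≤ ε) → x z ≤ ε)) ∨
      (kind z = some 8 ∧ ((1 - ε ≤ x (a z) ∧ 1 - ε ≤ x (b z)) → 1 - ε ≤ x z) ∧
        ((x (a z) ≤ ε ∨ x (b z) ≤ ε) → x z ≤ ε))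
    let step : (V → ℚ) → V → ℚ := fun x z =>
      if kind z = some 5 then
        (if ((x (a z) : ℚ) : ℝ) < ((x (b z) : ℚ) : ℝ) - ε then 3 / 4
          else if ((x (b z) : ℚ) : ℝ) + ε < ((x (a z) : ℚ) : ℝ) then 1 / 4 else 1 / 2)
      else if kind z = some 6 then
        (if ((x (a z) : ℚ) : ℝ) ≤ ε then 3 / 4
          else if 1 - ε ≤ ((x (a z) : ℚ) : ℝ) then 1 / 4 else 1 / 2)
      else if kind z = some 7 then
        (if 1 - ε ≤ ((x (a z) : ℚ) : ℝ) ∨ 1 - ε ≤ ((x (b z) : ℚ) : ℝ) then 3 / 4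
          else if ((x (a z) : ℚ) : ℝ) ≤ ε ∧ ((x (b z) : ℚ) : ℝ) ≤ ε then 1 / 4 else 1 / 2)
      else if kind z = some 8 then
        (if 1 - ε ≤ ((x (a z) : ℚ) : ℝ) ∧ 1 - ε ≤ ((x (b z) : ℚ) : ℝ) then 3 / 4
          else if ((x (a z) : ℚ) : ℝ) ≤ ε ∨ ((x (b z) : ℚ) : ℝ) ≤ ε then 1 / 4 else 1 / 2)
      else x z
    let x₀ : V → ℚ := fun z =>
      if kind z = some 0 then max (1 / 4) (min (α z) (3 / 4))
      else if kind z = some 1 then max (1 / 4) (α z / 2)
      else if kind z = some 3 then 3 / 4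
      else if kind z = some 4 then 1 / 4
      else 1 / 2
    (1 / 2 ≤ ε → ∀ z, kind z ≠ none → Sat (fun _ => 1 / 2) z) ∧
    (1 / 4 ≤ ε → ε < 1 / 2 →
      step (step^[Fintype.card V] x₀) = step^[Fintype.card V] x₀ ∧
      (∀ z, 1 / 4 ≤ step^[Fintype.card V] x₀ z ∧ step^[Fintype.card V] x₀ z ≤ 3 / 4) ∧
      ∀ z, kind z ≠ none → Sat (fun v => ((step^[Fintype.card V] x₀ v : ℚ) : ℝ)) z) :=
  Vale.Agent.Helper2.GCircuitEasy.main kind α a b hα ε

end Vale.Agent.Results.P330.LargeEpsilon
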